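import Vale.Agent.P281.H740.TM.SpecR
import Vale.Agent.P281.H740.TW.Level
import Vale.Agent.P281.H364.Gen.Crit
import Vale.Agent.P281.H150.Gen.Img

/-!
# P281, project T-M, block T10-R3 (helper727): constancy on the fibres
-/

open Set Filter Metric
open Vale.Agent.P281 Vale.Agent.P281.H713
open Vale.Agent.P281.H64 (Cm IsProperFibration)
open Vale.Agent.P281.H64.Thin (IsThinSet)
open Vale.Agent.P281.H64.Gen (IsSmallSet CritStmt)
open scoped Manifold ContDiff Topology

set_option linter.unusedSectionVars false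

noncomputable section

namespace Vale.Agent.P281.H727.TM

theorem dense_compl_thin {n : ℕ} {X : Type} [TopologicalSpace X] [ChartedSpace (Cm n) X]
    {S : Set X} (h : IsThinSet (Cm n) S) : Dense Sᶜ := by
  intro y
  obtain ⟨g, hg, hne, hev⟩ := h.2 y
  rw [mem_closure_iff_frequently]
  intro hcon
  apply hne
  filter_upwards [hcon, hev] with z hz hz'
  exact hz' (not_not.1 hz)

/-- The complement of a small set is dense. -/
theorem dense_compl_small {n : ℕ} {X : Type} [TopologicalSpace X] [T2Space X]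
    [ChartedSpace (Cm n) X] {S : Set X} (h : IsSmallSet (Cm n) S) : Dense Sᶜ := by
  have : LocallyCompactSpace X := ChartedSpace.locallyCompactSpace (Cm n) X
  obtain ⟨-, H, hH, hS⟩ := h
  have h1 : Dense (⋂ k, (H k)ᶜ) := dense_iInter_of_isOpen_nat (fun k => (hH k).1.isOpen_compl)
    fun k => dense_compl_thin (hH k)
  refine h1.mono fun z hz hzS => ?_
  obtain ⟨k, hk⟩ := mem_iUnion.1 (hS hzS)
  exact mem_iInter.1 hz k hk

section
variable {n : ℕ} {F C : Type} [TopologicalSpace F] [ChartedSpace (Cm n) F] [TopologicalSpace C]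
  [ChartedSpace (Cm 1) C] {γ : F → C}

/-- `γ` in the preferred charts at `t` and `γ t`. -/
def loc (γ : F → C) (t : F) (u : Cm n) : ℂ :=
  chartAt (Cm 1) (γ t) (γ ((chartAt (Cm n) t).symm u)) 0

theorem loc_analytic (hγ : ContMDiff 𝓘(ℂ, Cm n) 𝓘(ℂ, Cm 1) ω γ) (t : F) :
    AnalyticAt ℂ (loc γ t) (chartAt (Cm n) t t) := by
  have h1 := H740.contDiffAt_loc (hγ t)
  have h2 : ContDiffAt ℂ ω (loc γ t) (chartAt (Cm n) t t) := contDiffAt_pi.1 h1 0
  exact h2.analyticAt

theorem loc_chart (t : F) {s : F} (hs : s ∈ (chartAt (Cm n) t).source) :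
    loc γ t (chartAt (Cm n) t s) = chartAt (Cm 1) (γ t) (γ s) 0 := by
  unfold loc
  rw [(chartAt (Cm n) t).left_inv hs]

theorem eq_of_coord {c a b : C} (ha : a ∈ (chartAt (Cm 1) c).source)
    (hb : b ∈ (chartAt (Cm 1) c).source)
    (h : chartAt (Cm 1) c a 0 = chartAt (Cm 1) c b 0) : a = b := by
  apply (chartAt (Cm 1) c).injOn ha hb
  funext i
  rw [Subsingleton.elim i 0]
  exact h

/-- a non constant map to a curve is open -/
theorem nhds_le_map (hγ : ContMDiff 𝓘(ℂ, Cm n) 𝓘(ℂ, Cm 1) ω γ) {t : F}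
    (hne : ¬ ∀ᶠ s in 𝓝 t, γ s = γ t) : 𝓝 (γ t) ≤ map γ (𝓝 t) := by
  have hsrc : ∀ᶠ s in 𝓝 t, s ∈ (chartAt (Cm n) t).source :=
    (chartAt (Cm n) t).open_source.mem_nhds (mem_chart_source _ t)
  have htgt : ∀ᶠ s in 𝓝 t, γ s ∈ (chartAt (Cm 1) (γ t)).source :=
    hγ.continuous.continuousAt.eventually
      ((chartAt (Cm 1) (γ t)).open_source.mem_nhds (mem_chart_source _ (γ t)))
  have hcont : ContinuousAt (chartAt (Cm n) t) t :=
    (chartAt (Cm n) t).continuousAt (mem_chart_source _ t)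
  have ht0 := loc_chart (γ := γ) t (mem_chart_source (Cm n) t)
  rcases (loc_analytic hγ t).eventually_constant_or_nhds_le_map_nhds with h | h
  · exfalso
    apply hne
    filter_upwards [hcont.eventually h, hsrc, htgt] with s h1 h2 h3
    apply eq_of_coord h3 (mem_chart_source _ (γ t))
    rw [loc_chart t h2, ht0] at h1
    exact h1
  · -- the inverse chart
    set φ := chartAt (Cm 1) (γ t) with hφ
    let J : ℂ → Cm 1 := fun z _ => z
    have hJ : ∀ v : Cm 1, J (v 0) = v := fun v => by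
      funext i
      rw [Subsingleton.elim i 0]
    have hJc : Continuous J := by fun_prop
    have e1 : 𝓝 (φ (γ t)) = map J (𝓝 (φ (γ t) 0)) := by
      have e2 := (Homeomorph.funUnique (Fin 1) ℂ).symm.map_nhds_eq (φ (γ t) 0)
      have e3 : ((Homeomorph.funUnique (Fin 1) ℂ).symm : ℂ → Cm 1) = J := by
        funext z i
        simp [J]
      rw [e3] at e2
      rw [e2, hJ]
    have e4 : 𝓝 (γ t) = map φ.symm (𝓝 (φ (γ t))) := by
      rw [φ.symm.map_nhds_eq (φ.map_source (mem_chart_source _ (γ t))),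
        φ.left_inv (mem_chart_source _ (γ t))]
    have e5 : 𝓝 (chartAt (Cm n) t t) = map (chartAt (Cm n) t) (𝓝 t) :=
      ((chartAt (Cm n) t).map_nhds_eq (mem_chart_source _ t)).symm
    rw [e4, e1, ← ht0]
    refine (map_mono (map_mono h)).trans ?_
    rw [e5, map_map, map_map, map_map]
    refine le_of_eq (Filter.map_congr ?_)
    filter_upwards [hsrc, htgt] with s h2 h3
    show φ.symm (J (loc γ t (chartAt (Cm n) t s))) = γ s
    rw [loc_chart t h2, hJ]
    exact φ.left_inv h3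

/-- identity theorem: a locally constant germ -/
theorem const_of_germ [PreconnectedSpace F] [T2Space C]
    (hγ : ContMDiff 𝓘(ℂ, Cm n) 𝓘(ℂ, Cm 1) ω γ) {t : F} (ht : ∀ᶠ s in 𝓝 t, γ s = γ t) :
    ∀ s s', γ s = γ s' := by
  set A : Set F := {t | ∀ᶠ s in 𝓝 t, γ s = γ t} with hA
  have ho : IsOpen A := by
    rw [isOpen_iff_mem_nhds]
    intro s hs
    have hs' : ∀ᶠ r in 𝓝 s, γ r = γ s := hs
    filter_upwards [hs'.eventually_nhds] with r hr
    have h1 := hr.self_of_nhds
    show ∀ᶠ q in 𝓝 r, γ q = γ r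
    rw [h1]
    exact hr
  have hc : IsClosed A := by
    refine isClosed_of_closure_subset fun s hs => ?_
    have hsrc : ∀ᶠ u in 𝓝 (chartAt (Cm n) s s), u ∈ (chartAt (Cm n) s).target :=
      (chartAt (Cm n) s).open_target.mem_nhds (mem_chart_target _ s)
    have hsymm : ContinuousAt (chartAt (Cm n) s).symm (chartAt (Cm n) s s) :=
      (chartAt (Cm n) s).continuousAt_symm (mem_chart_target _ s)
    have htgt : ∀ᶠ u in 𝓝 (chartAt (Cm n) s s),
        γ ((chartAt (Cm n) s).symm u) ∈ (chartAt (Cm 1) (γ s)).source := by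
      have h1 : ContinuousAt (fun u => γ ((chartAt (Cm n) s).symm u)) (chartAt (Cm n) s s) :=
        ContinuousAt.comp (g := γ) (f := (chartAt (Cm n) s).symm)
          hγ.continuous.continuousAt hsymm
      refine h1.eventually ((chartAt (Cm 1) (γ s)).open_source.mem_nhds ?_)
      show γ ((chartAt (Cm n) s).symm (chartAt (Cm n) s s)) ∈ _
      rw [(chartAt (Cm n) s).left_inv (mem_chart_source _ s)]
      exact mem_chart_source _ _
    obtain ⟨r, hr, hball⟩ := Metric.eventually_nhds_iff_ball.1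
      (hsrc.and (htgt.and (loc_analytic hγ s).eventually_analyticAt))
    have hN : {q | q ∈ (chartAt (Cm n) s).source ∧
        chartAt (Cm n) s q ∈ ball (chartAt (Cm n) s s) r} ∈ 𝓝 s := by
      refine inter_mem ((chartAt (Cm n) s).open_source.mem_nhds (mem_chart_source _ s)) ?_
      exact (chartAt (Cm n) s).continuousAt (mem_chart_source _ s) (ball_mem_nhds _ hr)
    obtain ⟨q, ⟨hq1, hq2⟩, hqA⟩ := mem_closure_iff_nhds.1 hs _ hN
    have hqA' : ∀ᶠ p in 𝓝 q, γ p = γ q := hqA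
    have hq3 : ∀ᶠ u in 𝓝 (chartAt (Cm n) s q), γ ((chartAt (Cm n) s).symm u) = γ q := by
      have h1 : ContinuousAt (chartAt (Cm n) s).symm (chartAt (Cm n) s q) :=
        (chartAt (Cm n) s).continuousAt_symm ((chartAt (Cm n) s).map_source hq1)
      have h2 : Tendsto (chartAt (Cm n) s).symm (𝓝 (chartAt (Cm n) s q)) (𝓝 q) := by
        have h3 := h1.tendsto
        rwa [(chartAt (Cm n) s).left_inv hq1] at h3
      exact h2.eventually hqA'
    have hEq : EqOn (loc γ s) (fun _ => loc γ s (chartAt (Cm n) s q))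
        (ball (chartAt (Cm n) s s) r) := by
      refine AnalyticOnNhd.eqOn_of_preconnected_of_eventuallyEq
        (fun u hu => (hball u hu).2.2) (fun u _ => analyticAt_const)
        (convex_ball _ _).isPreconnected hq2 ?_
      filter_upwards [hq3] with u hu
      show chartAt (Cm 1) (γ s) (γ ((chartAt (Cm n) s).symm u)) 0 = _
      rw [hu, loc_chart s hq1]
    show ∀ᶠ p in 𝓝 s, γ p = γ s
    filter_upwards [hN] with p hp
    have h1 := hEq hp.2
    have h2 := hEq (mem_ball_self hr)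
    have h3 : loc γ s (chartAt (Cm n) s p) = loc γ s (chartAt (Cm n) s s) := h1.trans h2.symm
    rw [loc_chart s hp.1, loc_chart s (mem_chart_source _ s)] at h3
    have h4 := (hball _ hp.2).2.1
    rw [(chartAt (Cm n) s).left_inv hp.1] at h4
    exact eq_of_coord h4 (mem_chart_source _ _) h3
  have hAu : A = univ := (show IsClopen A from ⟨hc, ho⟩).eq_univ ⟨t, ht⟩
  have hlc : IsLocallyConstant γ := by
    rw [IsLocallyConstant.iff_eventually_eq]
    intro s
    have : s ∈ A := hAu ▸ mem_univ s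
    exact this
  exact fun s s' => hlc.apply_eq_of_preconnectedSpace s s'

/-- a surjective map is not locally constant anywhere -/
theorem not_germ [PreconnectedSpace F] [T2Space C]
    (hγ : ContMDiff 𝓘(ℂ, Cm n) 𝓘(ℂ, Cm 1) ω γ) (hs : Function.Surjective γ) (t : F) :
    ¬ ∀ᶠ s in 𝓝 t, γ s = γ t := by
  intro ht
  have h1 := const_of_germ hγ ht
  have h2 : ∀ c c' : C, c = c' := fun c c' => by
    obtain ⟨s, rfl⟩ := hs c
    obtain ⟨s', rfl⟩ := hs c'
    exact h1 s s'
  have h3 : (chartAt (Cm 1) (γ t)).target = {chartAt (Cm 1) (γ t) (γ t)} := by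
    refine Subset.antisymm (fun v hv => ?_) fun v hv => ?_
    · rw [mem_singleton_iff, ← (chartAt (Cm 1) (γ t)).right_inv hv,
        h2 ((chartAt (Cm 1) (γ t)).symm v) (γ t)]
    · rw [mem_singleton_iff.1 hv]
      exact mem_chart_target _ _
  have h4 := (chartAt (Cm 1) (γ t)).open_target
  rw [h3] at h4
  exact not_isOpen_singleton _ h4

end

/-- constancy on the good fibres: the maximum principle -/
theorem const_good {F C : Type} [TopologicalSpace F] [CompactSpace F]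
    [ChartedSpace (Cm 2) F] [IsManifold 𝓘(ℂ, Cm 2) ω F] [TopologicalSpace C] [T2Space C]
    [ChartedSpace (Cm 1) C] {γ : F → C} {ρ : F → ℂ}
    (hγ : ContMDiff 𝓘(ℂ, Cm 2) 𝓘(ℂ, Cm 1) ω γ) {c : C} (hconn : IsConnected (γ ⁻¹' {c}))
    (hsub : ∀ x, γ x = c → Function.Surjective (mfderiv 𝓘(ℂ, Cm 2) 𝓘(ℂ, Cm 1) γ x))
    {ω₀ : C → ℂ} (hω : ∀ t₀, γ t₀ = c →
      ∃ κ : F → ℂ, J.HolAt (Cm 2) κ t₀ ∧ ∀ᶠ t in 𝓝 t₀, ρ t = κ t * ω₀ (γ t))
    {x y : F} (hx : γ x = c) (hy : γ y = c) : ρ x = ρ y := by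
  have hn : Module.finrank ℂ (Cm 2) = Module.finrank ℂ (Cm 1) + Module.finrank ℂ (Cm 1) := by
    simp only [Module.finrank_fin_fun]
  obtain ⟨cs, hman, hval, -⟩ := H740.exists_level (E₀ := Cm 1) hn hγ hsub
  have hcomp : CompactSpace (γ ⁻¹' {c}) :=
    isCompact_iff_compactSpace.1 (isClosed_singleton.preimage hγ.continuous).isCompact
  have hcon : ConnectedSpace (γ ⁻¹' {c}) := isConnected_iff_connectedSpace.1 hconn
  have hf : MDifferentiable 𝓘(ℂ, Cm 1) 𝓘(ℂ, ℂ) (fun s : γ ⁻¹' {c} => ρ s.1) := by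
    intro s
    obtain ⟨κ, hκ, hev⟩ := hω s.1 s.2
    have h1 : MDifferentiableAt 𝓘(ℂ, Cm 1) 𝓘(ℂ, ℂ) (fun s : γ ⁻¹' {c} => κ s.1) s :=
      (ContMDiffAt.comp s (g := κ) (f := (Subtype.val : γ ⁻¹' {c} → F)) hκ
        (hval s)).mdifferentiableAt (by simp)
    have h2 : MDifferentiableAt 𝓘(ℂ, Cm 1) 𝓘(ℂ, ℂ) (fun s : γ ⁻¹' {c} => κ s.1 * ω₀ c) s :=
      h1.mul mdifferentiableAt_const
    refine h2.congr_of_eventuallyEq ?_
    filter_upwards [continuous_subtype_val.continuousAt.eventually hev] with r hr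
    rw [hr, show γ r.1 = c from r.2]
  exact hf.apply_eq_of_compactSpace (I := 𝓘(ℂ, Cm 1)) ⟨x, hx⟩ ⟨y, hy⟩

/-- **R3** from generic smoothness. -/
theorem const_of (crit : CritStmt) : H740.TM.ConstStmt := by
  intro F C _ _ _ _ _ _ _ _ _ _ γ O ρ hγ hconn hO hω t t' htt htO
  obtain ⟨S, hS, hP⟩ := crit 2 1 F C γ hγ hconn
  have hP' := hP S subset_rfl hS.1
  have hsurj : Function.Surjective γ := fun c => (hconn c).nonempty
  have hd : Dense Sᶜ := dense_compl_small hS
  obtain ⟨ω₀, hne, hloc⟩ := hω _ htO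
  obtain ⟨κ, hκ, hev⟩ := hloc t rfl
  obtain ⟨κ', hκ', hev'⟩ := hloc t' htt.symm
  have hkey : κ t = κ' t' := by
    by_contra hk
    obtain ⟨V, V', hV, hV', htV, htV', hdis⟩ := t2_separation hk
    have hU : γ '' {x | ρ x = κ x * ω₀ (γ x) ∧ κ x ∈ V} ∈ 𝓝 (γ t) :=
      nhds_le_map hγ (not_germ hγ hsurj t) (image_mem_map
        (hev.and (hκ.continuousAt.eventually (hV.mem_nhds htV))))
    have hU' : γ '' {x | ρ x = κ' x * ω₀ (γ x) ∧ κ' x ∈ V'} ∈ 𝓝 (γ t) := by
      rw [htt]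
      exact nhds_le_map hγ (not_germ hγ hsurj t') (image_mem_map
        (hev'.and (hκ'.continuousAt.eventually (hV'.mem_nhds htV'))))
    obtain ⟨c, hcS, hc⟩ := hd.inter_nhds_nonempty
      (inter_mem (inter_mem hU hU') (inter_mem (hO.mem_nhds htO) hne))
    obtain ⟨⟨⟨x, ⟨hx1, hx2⟩, hx⟩, ⟨y, ⟨hy1, hy2⟩, hy⟩⟩, hcO, hcne⟩ := hc
    obtain ⟨ω₁, -, hω₁⟩ := hω c hcO
    have h1 : ρ x = ρ y := const_good hγ (hconn c)
      (fun z hz => hP'.submersive z (by rw [hz]; exact hcS)) hω₁ hx hy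
    rw [hx1, hy1, hx, hy] at h1
    have h2 : κ x = κ' y := mul_right_cancel₀ hcne h1
    exact disjoint_left.1 hdis hx2 (h2 ▸ hy2)
  rw [hev.self_of_nhds, hev'.self_of_nhds, hkey, htt]

/-- **R3**. -/
theorem const : H740.TM.ConstStmt := const_of (H364.crit H150.Gen.img)

end Vale.Agent.P281.H727.TM
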